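import Vale.Agent.P203.Apt.Convex

/-! P203, block COX: combinatorial consequences (X3), (X5), (X3z) of the gradient inequality
(proofs by helper774, note 4302). No finiteness of `W_U` is used.

Vertices are pairs `(w, t)`, `w ∈ W_U = parab cs U`, `t ∈ U`, standing for the coset `w W_{U∖t}`.

* `Chain cs U P`: equivalence relation generated by: same chamber, `(w,t) ~ (w s_j, t)` (`j ≠ t`),
  all vertices satisfying `P`.
* `x1`: the gradient inequality in the form used here.
* `chain_neg` (X3): the negative vertices of a convex function are connected.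
* `exists_neg_nbr` (X5): a zero vertex of a convex function with a negative value somewhere has a
  negative neighbour.
* `chain_zero` (X3z): two zero vertices of a nonnegative convex function that are not antipodal are
  connected by zero vertices.
* `antip_mirror`: what it means that `(w,t)` and `(s_x w, t)` are antipodal. -/

set_option linter.all false

namespace Vale.Agent.P203.Apt

open Vale.Agent.P203.Cox

variable {B : Type*} {W : Type*} [Group W] {M : CoxeterMatrix B} {cs : CoxeterSystem M W}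

variable (cs) in
/-- adjacency of vertices satisfying `P`: same chamber, or the same vertex seen from an adjacent
chamber -/
def Adj (U : Finset B) (P : W → B → Prop) (a b : W × B) : Prop :=
  (a.1 ∈ parab cs (U : Set B) ∧ b.1 ∈ parab cs (U : Set B) ∧ a.2 ∈ U ∧ b.2 ∈ U) ∧
  P a.1 a.2 ∧ P b.1 b.2 ∧
  (a.1 = b.1 ∨ (a.2 = b.2 ∧ ∃ j ∈ U, j ≠ a.2 ∧ b.1 = a.1 * cs.simple j))

variable (cs) in
/-- connected by a chain of `P`-vertices -/
def Chain (U : Finset B) (P : W → B → Prop) : W × B → W × B → Prop :=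
  Relation.EqvGen (Adj cs U P)

theorem Chain.symm' {U : Finset B} {P : W → B → Prop} {a b : W × B} (h : Chain cs U P a b) :
    Chain cs U P b a := Relation.EqvGen.symm _ _ h

theorem Chain.trans' {U : Finset B} {P : W → B → Prop} {a b c : W × B} (h : Chain cs U P a b)
    (h' : Chain cs U P b c) : Chain cs U P a c := Relation.EqvGen.trans _ _ _ h h'

theorem Chain.refl' {U : Finset B} {P : W → B → Prop} (a : W × B) : Chain cs U P a a :=
  Relation.EqvGen.refl _

theorem chain_same {U : Finset B} {P : W → B → Prop} {w : W} {s t : B}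
    (hw : w ∈ parab cs (U : Set B)) (hsU : s ∈ U) (htU : t ∈ U) (hs : P w s) (ht : P w t) :
    Chain cs U P (w, s) (w, t) :=
  Relation.EqvGen.rel _ _ ⟨⟨hw, hw, hsU, htU⟩, hs, ht, Or.inl rfl⟩

theorem chain_step {U : Finset B} {P : W → B → Prop} {w : W} {s j : B}
    (hw : w ∈ parab cs (U : Set B)) (hsU : s ∈ U) (hjU : j ∈ U) (hj : j ≠ s) (hs : P w s)
    (hs' : P (w * cs.simple j) s) : Chain cs U P (w, s) (w * cs.simple j, s) :=
  Relation.EqvGen.rel _ _ ⟨⟨hw, mul_mem hw (simple_mem_parab (by exact_mod_cast hjU)), hsU, hsU⟩,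
    hs, hs', Or.inr ⟨rfl, j, hjU, hj, rfl⟩⟩

/-- an invariant of adjacent vertices is an invariant of chains -/
theorem Chain.elim {U : Finset B} {P : W → B → Prop} {a b : W × B} (h : Chain cs U P a b)
    {r : W × B → W × B → Prop} (hr : Equivalence r) (hadj : ∀ a b, Adj cs U P a b → r a b) :
    r a b := by
  induction h with
  | rel x y h => exact hadj x y h
  | refl x => exact hr.refl x
  | symm x y _ ih => exact hr.symm ih
  | trans x y z _ _ ih ih' => exact hr.trans ih ih'

variable {U : Finset B}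

theorem IsConv.value_mul {ψ : W → B → ℝ} (h : IsConv cs U ψ) {w u : W}
    (hw : w ∈ parab cs (U : Set B)) {t : B} (ht : t ∈ U)
    (hu : u ∈ parab cs ((U : Set B) \ {t})) : ψ (w * u) t = ψ w t := by
  have hmono : parab cs ((U : Set B) \ {t}) ≤ parab cs (U : Set B) :=
    parab_mono Set.diff_subset
  unfold parab at hu
  induction hu using Subgroup.closure_induction_right with
  | one => rw [mul_one]
  | mul_right x hx y hy ih =>
    obtain ⟨j, hj, rfl⟩ := hy
    rw [← mul_assoc, h.inv _ (mul_mem hw (hmono hx)) j (by exact_mod_cast hj.1) t ht hj.2, ih]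
  | mul_inv_cancel x hx y hy ih =>
    obtain ⟨j, hj, rfl⟩ := hy
    rw [← mul_assoc, cs.inv_simple,
      h.inv _ (mul_mem hw (hmono hx)) j (by exact_mod_cast hj.1) t ht hj.2, ih]

/-- (X1) gradient inequality -/
theorem x1 {ψ : W → B → ℝ} (h : IsConv cs U ψ) {w w' : W} (hw : w ∈ parab cs (U : Set B))
    (hw' : w' ∈ parab cs (U : Set B)) {t' : B} (ht' : t' ∈ U) :
    ∑ q ∈ U, (act cs (w'⁻¹ * w) (Finsupp.single q 1)) t' * ψ w q ≤ ψ w' t' := by
  have h1 := grad_le h hw (mul_mem (inv_mem hw') hw) ht'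
  rw [show w * (w'⁻¹ * w)⁻¹ = w' by group] at h1
  refine le_trans (le_of_eq ?_) h1
  conv_rhs => rw [(grad_supp (U := U) ψ w).sum, map_sum, Finsupp.finsetSum_apply]
  refine Finset.sum_congr rfl fun q hq => ?_
  rw [map_smul, Finsupp.coe_smul, Pi.smul_apply, smul_eq_mul, grad_apply ψ w hq, mul_comm]

theorem nn_of_not_desc {g : W} {q : B} (h : ¬ cs.length (g * cs.simple q) < cs.length g) :
    NN (act cs g (Finsupp.single q 1)) := by
  apply act_single_pos
  rcases cs.length_mul_simple g q with h' | h' <;> omega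

/-- (X3) the negative vertices of a convex function are connected -/
theorem chain_neg {ψ : W → B → ℝ} (h : IsConv cs U ψ) {w w' : W} {t t' : B}
    (hw : w ∈ parab cs (U : Set B)) (hw' : w' ∈ parab cs (U : Set B)) (ht : t ∈ U)
    (ht' : t' ∈ U) (hψ : ψ w t < 0) (hψ' : ψ w' t' < 0) :
    Chain cs U (fun w s => ψ w s < 0) (w, t) (w', t') := by
  classical
  obtain ⟨n, hn⟩ : ∃ n, n = cs.length (w'⁻¹ * w) := ⟨_, rfl⟩
  induction n using Nat.strong_induction_on generalizing w t with
  | _ n ih =>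
  by_cases hg1 : w'⁻¹ * w = 1
  · have : w = w' := by rw [inv_mul_eq_one] at hg1; exact hg1.symm
    subst this
    exact chain_same hw ht ht' hψ hψ'
  by_cases hA : ∃ s ∈ U, cs.length (w'⁻¹ * w * cs.simple s) < cs.length (w'⁻¹ * w) ∧
      ∃ q ∈ U, q ≠ s ∧ ψ w q < 0
  · obtain ⟨s, hs, hlt, q, hq, hqs, hneg⟩ := hA
    have hneg' : ψ (w * cs.simple s) q < 0 := by
      rw [h.inv w hw s hs q hq (Ne.symm hqs)]; exact hneg
    have h1 := ih _ (by rw [hn, ← mul_assoc]; exact hlt)
      (w := w * cs.simple s) (t := q)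
      (mul_mem hw (simple_mem_parab (by exact_mod_cast hs))) hq hneg' rfl
    exact (chain_same hw ht hq hψ hneg).trans'
      ((chain_step hw hq hs (Ne.symm hqs) hneg hneg').trans' h1)
  exfalso
  push Not at hA
  obtain ⟨s, hs, hlt⟩ := exists_desc_parab (mul_mem (inv_mem hw') hw) hg1
  have hs' : s ∈ U := by exact_mod_cast hs
  have hts : t = s := by
    by_contra hne
    exact absurd hψ (not_lt.mpr (hA s hs' hlt t ht hne))
  subst hts
  have h1 := x1 h hw hw' ht'
  have h2 : 0 ≤ ∑ q ∈ U, (act cs (w'⁻¹ * w) (Finsupp.single q 1)) t' * ψ w q := by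
    refine Finset.sum_nonneg fun q hq => ?_
    by_cases hqt : q = t
    · subst hqt
      have h3 := act_single_neg hlt t'
      simp only [Finsupp.coe_neg, Pi.neg_apply] at h3
      exact mul_nonneg_of_nonpos_of_nonpos (by linarith) hψ.le
    · refine mul_nonneg (nn_of_not_desc ?_ t') (hA t hs' hlt q hq hqt)
      intro hd
      exact absurd hψ (not_lt.mpr (hA q hq hd t ht (Ne.symm hqt)))
  linarith

/-- (X5) a zero vertex of a convex function which is negative somewhere has a negative neighbour -/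
theorem exists_neg_nbr {ψ : W → B → ℝ} (h : IsConv cs U ψ) {w w₁ : W} {t t₁ : B}
    (hw : w ∈ parab cs (U : Set B)) (hw₁ : w₁ ∈ parab cs (U : Set B)) (ht : t ∈ U)
    (ht₁ : t₁ ∈ U) (h0 : ψ w t = 0) (h1 : ψ w₁ t₁ < 0) :
    ∃ u ∈ parab cs ((U : Set B) \ {t}), ∃ r ∈ U, r ≠ t ∧ ψ (w * u) r < 0 := by
  classical
  obtain ⟨n, hn⟩ : ∃ n, n = cs.length (w₁⁻¹ * w) := ⟨_, rfl⟩
  induction n using Nat.strong_induction_on generalizing w with
  | _ n ih =>
  by_cases hA : ∃ s ∈ U, s ≠ t ∧ cs.length (w₁⁻¹ * w * cs.simple s) < cs.length (w₁⁻¹ * w)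
  · obtain ⟨s, hs, hst, hlt⟩ := hA
    obtain ⟨u, hu, r, hr, hrt, hneg⟩ := ih _ (by rw [hn, ← mul_assoc]; exact hlt)
      (w := w * cs.simple s) (mul_mem hw (simple_mem_parab (by exact_mod_cast hs)))
      (by rw [h.inv w hw s hs t ht hst]; exact h0) rfl
    refine ⟨cs.simple s * u, mul_mem (simple_mem_parab ⟨by exact_mod_cast hs, hst⟩) hu,
      r, hr, hrt, ?_⟩
    rw [← mul_assoc]; exact hneg
  push Not at hA
  have h2 := (x1 h hw hw₁ ht₁).trans_lt h1
  obtain ⟨q, hq, hneg⟩ := Finset.exists_lt_of_sum_lt (f := fun q =>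
    (act cs (w₁⁻¹ * w) (Finsupp.single q 1)) t₁ * ψ w q) (g := fun _ => (0 : ℝ))
    (s := U) (by simpa using h2)
  have hqt : q ≠ t := by
    rintro rfl
    simp [h0] at hneg
  have h3 := nn_of_not_desc (cs := cs) (not_lt.mpr (hA q hq hqt)) t₁
  refine ⟨1, one_mem _, q, hq, hqt, ?_⟩
  rw [mul_one]
  by_contra hcon
  exact absurd hneg (not_lt.mpr (mul_nonneg h3 (not_lt.mp hcon)))

variable (cs) in
/-- `(w,t)` and `(w',t')` are antipodal vertices of the Coxeter complex of `W_U` -/
def Antip (U : Finset B) (w : W) (t : B) (w' : W) (t' : B) : Prop :=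
  ∃ c : ℝ, 0 < c ∧ ∀ v : VSp B, Supp U v → (act cs w'⁻¹ v) t' = -c * (act cs w⁻¹ v) t

theorem Antip.symm {w w' : W} {t t' : B} (h : Antip cs U w t w' t') : Antip cs U w' t' w t := by
  obtain ⟨c, hc, h⟩ := h
  refine ⟨c⁻¹, inv_pos.mpr hc, fun v hv => ?_⟩
  rw [h v hv]
  field_simp

/-- changing the representative of the first vertex -/
theorem Antip.of_mul {w w' : W} {t t' : B} {u : W}
    (hu : u ∈ parab cs ((U : Set B) \ {t})) (h : Antip cs U (w * u) t w' t') :
    Antip cs U w t w' t' := by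
  obtain ⟨c, hc, h⟩ := h
  refine ⟨c, hc, fun v hv => ?_⟩
  rw [h v hv, mul_inv_rev, act_mul_apply]
  rw [act_parab_apply (inv_mem hu) _ (by simp)]

/-- (X3z) two zero vertices of a nonnegative convex function are connected by zero vertices unless
they are antipodal -/
theorem chain_zero {ψ : W → B → ℝ} (h : IsConv cs U ψ)
    (hnn : ∀ w ∈ parab cs (U : Set B), ∀ t ∈ U, 0 ≤ ψ w t) {w w' : W} {t t' : B}
    (hw : w ∈ parab cs (U : Set B)) (hw' : w' ∈ parab cs (U : Set B)) (ht : t ∈ U)
    (ht' : t' ∈ U) (hψ : ψ w t = 0) (hψ' : ψ w' t' = 0) (hant : ¬ Antip cs U w t w' t') :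
    Chain cs U (fun w s => ψ w s = 0) (w, t) (w', t') := by
  classical
  obtain ⟨n, hn⟩ : ∃ n, n = cs.length (w'⁻¹ * w) := ⟨_, rfl⟩
  induction n using Nat.strong_induction_on generalizing w t with
  | _ n ih =>
  -- peel a descent different from `t`
  have peel : ∀ t ∈ U, ψ w t = 0 → ¬ Antip cs U w t w' t' → ∀ s ∈ U, s ≠ t →
      cs.length (w'⁻¹ * w * cs.simple s) < cs.length (w'⁻¹ * w) →
      Chain cs U (fun w s => ψ w s = 0) (w, t) (w', t') := by
    intro t ht hψ hant s hs hst hlt
    have h0 : ψ (w * cs.simple s) t = 0 := by rw [h.inv w hw s hs t ht hst]; exact hψ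
    have hsm : cs.simple s ∈ parab cs ((U : Set B) \ {t}) :=
      simple_mem_parab ⟨by exact_mod_cast hs, hst⟩
    have h1 := ih _ (by rw [hn, ← mul_assoc]; exact hlt) (w := w * cs.simple s) (t := t)
      (mul_mem hw (simple_mem_parab (by exact_mod_cast hs))) ht h0
      (fun h' => hant (h'.of_mul hsm)) rfl
    exact (chain_step hw ht hs hst hψ h0).trans' h1
  by_cases hg1 : w'⁻¹ * w = 1
  · have : w = w' := by rw [inv_mul_eq_one] at hg1; exact hg1.symm
    subst this
    exact chain_same hw ht ht' hψ hψ'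
  by_cases hA : ∃ s ∈ U, s ≠ t ∧ cs.length (w'⁻¹ * w * cs.simple s) < cs.length (w'⁻¹ * w)
  · obtain ⟨s, hs, hst, hlt⟩ := hA
    exact peel t ht hψ hant s hs hst hlt
  push Not at hA
  obtain ⟨s, hs, hlt⟩ := exists_desc_parab (mul_mem (inv_mem hw') hw) hg1
  have hs' : s ∈ U := by exact_mod_cast hs
  have hst : s = t := by
    by_contra hne
    exact absurd hlt (not_lt.mpr (hA s hs' hne))
  subst hst
  have hterm : ∀ q ∈ U, 0 ≤ (act cs (w'⁻¹ * w) (Finsupp.single q 1)) t' * ψ w q := by
    intro q hq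
    by_cases hqs : q = s
    · subst hqs; rw [hψ, mul_zero]
    · exact mul_nonneg (nn_of_not_desc (not_lt.mpr (hA q hq hqs)) t') (hnn w hw q hq)
  have hsum := (Finset.sum_eq_zero_iff_of_nonneg hterm).mp
    (le_antisymm ((x1 h hw hw' ht').trans hψ'.le) (Finset.sum_nonneg hterm))
  -- a positive coefficient
  obtain ⟨q, hq, hqs, hqpos⟩ : ∃ q ∈ U, q ≠ s ∧
      0 < (act cs (w'⁻¹ * w) (Finsupp.single q 1)) t' := by
    by_contra hcon
    push Not at hcon
    have hz : ∀ q ∈ U, q ≠ s → (act cs (w'⁻¹ * w) (Finsupp.single q 1)) t' = 0 :=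
      fun q hq hqs => le_antisymm (hcon q hq hqs)
        (nn_of_not_desc (cs := cs) (not_lt.mpr (hA q hq hqs)) t')
    have hsle := act_single_neg hlt t'
    simp only [Finsupp.coe_neg, Pi.neg_apply] at hsle
    have hv : ∀ v : VSp B, Supp U v → (act cs w'⁻¹ v) t' =
        (act cs (w'⁻¹ * w) (Finsupp.single s 1)) t' * (act cs w⁻¹ v) s := by
      intro v hv
      have hv' : Supp U (act cs w⁻¹ v) := hv.act (inv_mem hw)
      have e : act cs w'⁻¹ v = act cs (w'⁻¹ * w) (act cs w⁻¹ v) := by
        rw [← act_mul_apply]; congr 1; group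
      rw [e]
      conv_lhs => rw [hv'.sum, map_sum, Finsupp.finsetSum_apply]
      rw [Finset.sum_eq_single s]
      · rw [map_smul, Finsupp.coe_smul, Pi.smul_apply, smul_eq_mul, mul_comm]
      · intro q hq hqs
        rw [map_smul, Finsupp.coe_smul, Pi.smul_apply, smul_eq_mul, hz q hq hqs, mul_zero]
      · intro h'; exact absurd hs' h'
    have hne : (act cs (w'⁻¹ * w) (Finsupp.single s 1)) t' ≠ 0 := by
      intro h0
      have := hv (act cs w' (Finsupp.single t' 1)) ((supp_single ht').act hw')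
      rw [h0, zero_mul, act_inv_apply_self] at this
      simp at this
    apply hant
    refine ⟨-(act cs (w'⁻¹ * w) (Finsupp.single s 1)) t', ?_, fun v hv' => ?_⟩
    · rcases hsle.lt_or_eq with h' | h'
      · exact h'
      · exact absurd (by linarith) hne
    · rw [hv v hv']; ring
  have hψq : ψ w q = 0 := by
    rcases mul_eq_zero.mp (hsum q hq) with h' | h'
    · exact absurd h' hqpos.ne'
    · exact h'
  have hant' : ¬ Antip cs U w q w' t' := by
    rintro ⟨c, hc, h'⟩
    have := h' (act cs w (Finsupp.single q 1)) ((supp_single hq).act hw)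
    rw [act_inv_apply_self, ← act_mul_apply] at this
    simp only [Finsupp.single_eq_same, mul_one] at this
    linarith
  exact (chain_same hw ht hq hψ hψq).trans' (peel q hq hψq hant' s hs' (Ne.symm hqs) hlt)

/-- antipodality of `(w,t)` and its mirror image in the wall `H_x`: the vertex functional is a
nonzero multiple of the form with `α_x` -/
theorem antip_mirror {w : W} {t x : B} (hw : w ∈ parab cs (U : Set B)) (ht : t ∈ U) (hx : x ∈ U)
    (h : Antip cs U w t (cs.simple x * w) t) :
    (act cs w⁻¹ (Finsupp.single x 1)) t ≠ 0 ∧ ∀ v : VSp B, Supp U v →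
      (act cs w⁻¹ v) t =
        (1 / 2) * (act cs w⁻¹ (Finsupp.single x 1)) t * form M (Finsupp.single x 1) v := by
  obtain ⟨c, hc, h⟩ := h
  set k := (act cs w⁻¹ (Finsupp.single x 1)) t with hk
  have h1 : ∀ v : VSp B, (act cs (cs.simple x * w)⁻¹ v) t =
      (act cs w⁻¹ v) t - form M (Finsupp.single x 1) v * k := by
    intro v
    rw [mul_inv_rev, cs.inv_simple, act_mul_apply, act_simple, map_sub, map_smul]
    simp [hk]
  have h2 : k ≠ 0 := by
    intro h0
    have h3 := h (act cs w (Finsupp.single t 1)) ((supp_single ht).act hw)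
    rw [h1, h0, mul_zero, sub_zero, act_inv_apply_self] at h3
    simp only [Finsupp.single_eq_same] at h3
    linarith
  have h4 := h (Finsupp.single x 1) (supp_single hx)
  rw [mul_inv_rev, cs.inv_simple, act_mul_apply, act_simple_self, map_neg] at h4
  simp only [Finsupp.coe_neg, Pi.neg_apply] at h4
  have hc1 : c = 1 := by
    have : (c - 1) * k = 0 := by rw [← hk] at h4; linarith
    rcases mul_eq_zero.mp this with h' | h'
    · linarith
    · exact absurd h' h2
  refine ⟨h2, fun v hv => ?_⟩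
  have h5 := h v hv
  rw [h1, hc1] at h5
  linarith

end Vale.Agent.P203.Apt
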