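import Vale.Agent.P203.Cox0.Par

/-! Discrete convexity on the Coxeter complex of a parabolic subgroup `W_U` (block COX/APT).

Everything lives in an ambient Coxeter system `cs : CoxeterSystem M W` (index type `B`), `U : Finset B`,
`W_U = parab cs U`. `IsConv cs U ψ`: for `w ∈ W_U`, `t ∈ U` the value `ψ w t` depends only on the
vertex `w W_{U∖t}` and satisfies the wall inequality
`ψ (w s_i) i + ψ w i ≥ ∑_{j ∈ U∖i} c_{ij} ψ w j` (`c_{ij} = - gram M i j`).
Main results: `grad_le` (global convexity), `exists_inCh`, `exists_wall_vertex`. -/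

set_option linter.all false

namespace Vale.Agent.P203.Apt

open Vale.Agent.P203.Cox

variable {B : Type*} {W : Type*} [Group W] {M : CoxeterMatrix B} {cs : CoxeterSystem M W}

/-! ### basic facts on `act` -/

theorem act_single_neg {w : W} {i : B} (h : cs.length (w * cs.simple i) < cs.length w) :
    NN (-(act cs w (Finsupp.single i 1))) := length_gt_iff_NN.1 h

theorem act_single_pos {w : W} {i : B} (h : cs.length w < cs.length (w * cs.simple i)) :
    NN (act cs w (Finsupp.single i 1)) := length_lt_iff_NN.1 h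

/-- every `w α_i` is nonnegative or nonpositive -/
theorem act_single_or (w : W) (i : B) :
    NN (act cs w (Finsupp.single i 1)) ∨ NN (-(act cs w (Finsupp.single i 1))) := by
  rcases cs.length_mul_simple w i with h | h
  · exact Or.inl (act_single_pos (by omega))
  · exact Or.inr (act_single_neg (by omega))

theorem length_lt_of_act_inv_pos {w : W} {i : B} {t : B}
    (h : 0 < (act cs w⁻¹ (Finsupp.single i 1)) t) :
    cs.length w < cs.length (cs.simple i * w) := by
  by_contra hcon
  have h2 : cs.length (w⁻¹ * cs.simple i) < cs.length w⁻¹ := by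
    rw [show w⁻¹ * cs.simple i = (cs.simple i * w)⁻¹ by rw [mul_inv_rev, cs.inv_simple],
      cs.length_inv, cs.length_inv]
    rcases cs.length_simple_mul w i with h' | h' <;> omega
  have h3 := act_single_neg h2 t
  simp only [Finsupp.coe_neg, Pi.neg_apply] at h3
  linarith

theorem length_lt_of_act_inv_neg {w : W} {i : B} {t : B}
    (h : (act cs w⁻¹ (Finsupp.single i 1)) t < 0) :
    cs.length (cs.simple i * w) < cs.length w := by
  by_contra hcon
  have h2 : cs.length w⁻¹ < cs.length (w⁻¹ * cs.simple i) := by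
    rw [show w⁻¹ * cs.simple i = (cs.simple i * w)⁻¹ by rw [mul_inv_rev, cs.inv_simple],
      cs.length_inv, cs.length_inv]
    rcases cs.length_simple_mul w i with h' | h' <;> omega
  have h3 := act_single_pos h2 t
  linarith

/-- `v` is supported in `U` -/
def Supp (U : Finset B) (v : VSp B) : Prop := ∀ i, i ∉ U → v i = 0

theorem Supp.act {U : Finset B} {v : VSp B} (hv : Supp U v) {u : W}
    (hu : u ∈ parab cs (U : Set B)) : Supp U (act cs u v) := fun i hi => by
  rw [act_parab_apply hu _ (by exact_mod_cast hi)]; exact hv i hi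

theorem supp_single {U : Finset B} {i : B} (hi : i ∈ U) : Supp U (Finsupp.single i (1 : ℝ)) :=
  fun j hj => by
    rw [Finsupp.single_eq_of_ne]
    rintro rfl; exact hj hi

theorem Supp.sum {U : Finset B} {v : VSp B} (hv : Supp U v) :
    v = ∑ j ∈ U, v j • Finsupp.single j (1 : ℝ) := by
  classical
  ext i
  rw [Finsupp.finsetSum_apply]
  by_cases hi : i ∈ U
  · rw [Finset.sum_eq_single i]
    · simp
    · intro k _ hk
      simp [Finsupp.single_eq_of_ne (Ne.symm hk)]
    · intro h; exact absurd hi h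
  · rw [hv i hi, Finset.sum_eq_zero]
    intro k hk
    have : i ≠ k := by rintro rfl; exact hi hk
    simp [Finsupp.single_eq_of_ne this]

theorem form_single_left {U : Finset B} {v : VSp B} (hv : Supp U v) (i : B) :
    form M (Finsupp.single i 1) v = ∑ j ∈ U, gram M i j * v j := by
  conv_lhs => rw [hv.sum, map_sum]
  refine Finset.sum_congr rfl fun j _ => ?_
  rw [map_smul, datum_act, smul_eq_mul, mul_comm]

variable {U : Finset B}

/-- vector with coordinates `ψ w j`, `j ∈ U` -/
noncomputable def grad (U : Finset B) (ψ : W → B → ℝ) (w : W) : VSp B :=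
  ∑ j ∈ U, Finsupp.single j (ψ w j)

theorem grad_apply (ψ : W → B → ℝ) (w : W) {t : B} (ht : t ∈ U) : grad U ψ w t = ψ w t := by
  classical
  unfold grad
  rw [Finsupp.finsetSum_apply, Finset.sum_eq_single t]
  · simp
  · intro k _ hk; rw [Finsupp.single_eq_of_ne (Ne.symm hk)]
  · intro h; exact absurd ht h

theorem grad_supp (ψ : W → B → ℝ) (w : W) : Supp U (grad U ψ w) := fun i hi => by
  unfold grad
  rw [Finsupp.finsetSum_apply]
  refine Finset.sum_eq_zero fun k hk => ?_
  have : i ≠ k := by rintro rfl; exact hi hk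
  rw [Finsupp.single_eq_of_ne this]

variable (cs) in
/-- functions on vertices of the Coxeter complex of `W_U` that are convex across every wall -/
structure IsConv (U : Finset B) (ψ : W → B → ℝ) : Prop where
  inv : ∀ w ∈ parab cs (U : Set B), ∀ i ∈ U, ∀ j ∈ U, i ≠ j → ψ (w * cs.simple i) j = ψ w j
  wall : ∀ w ∈ parab cs (U : Set B), ∀ i ∈ U,
    0 ≤ ψ (w * cs.simple i) i - ψ w i + ∑ j ∈ U, gram M i j * ψ w j

theorem act_simple_grad {ψ : W → B → ℝ} (h : IsConv cs U ψ) {w : W}
    (hw : w ∈ parab cs (U : Set B)) {i : B} (hi : i ∈ U) :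
    act cs (cs.simple i) (grad U ψ w) = grad U ψ (w * cs.simple i) -
      (ψ (w * cs.simple i) i - ψ w i + ∑ j ∈ U, gram M i j * ψ w j) • Finsupp.single i 1 := by
  classical
  rw [act_simple, form_single_left (grad_supp ψ w)]
  have e : ∑ j ∈ U, gram M i j * grad U ψ w j = ∑ j ∈ U, gram M i j * ψ w j :=
    Finset.sum_congr rfl fun j hj => by rw [grad_apply ψ w hj]
  rw [e]
  ext j
  simp only [Finsupp.coe_sub, Finsupp.coe_smul, Pi.sub_apply, Pi.smul_apply, smul_eq_mul]
  by_cases hj : j ∈ U
  · rw [grad_apply ψ w hj, grad_apply ψ _ hj]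
    by_cases hji : j = i
    · subst hji
      rw [Finsupp.single_eq_same]
      ring
    · rw [Finsupp.single_eq_of_ne hji, h.inv w hw i hi j hj (Ne.symm hji)]
      ring
  · have hji : j ≠ i := by rintro rfl; exact hj hi
    rw [grad_supp ψ w j hj, grad_supp ψ _ j hj, Finsupp.single_eq_of_ne hji]
    ring

/-- global convexity -/
theorem grad_le {ψ : W → B → ℝ} (h : IsConv cs U ψ) {w u : W} (hw : w ∈ parab cs (U : Set B))
    (hu : u ∈ parab cs (U : Set B)) {t : B} (ht : t ∈ U) :
    (act cs u (grad U ψ w)) t ≤ ψ (w * u⁻¹) t := by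
  obtain ⟨n, hn⟩ : ∃ n, n = cs.length u := ⟨_, rfl⟩
  induction n using Nat.strong_induction_on generalizing w u with
  | _ n ih =>
  by_cases hu1 : u = 1
  · subst hu1
    rw [act_one_apply, inv_one, mul_one, grad_apply ψ w ht]
  obtain ⟨i, hi, hlt⟩ := exists_desc_parab hu hu1
  have hi' : i ∈ U := hi
  have hsi := simple_mem_parab (cs := cs) hi
  have e : u = (u * cs.simple i) * cs.simple i := by
    rw [cs.simple_mul_simple_cancel_right]
  have h1 := ih (cs.length (u * cs.simple i)) (by omega) (w := w * cs.simple i)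
    (u := u * cs.simple i) (mul_mem hw hsi) (mul_mem hu hsi) rfl
  have h2 : NN (act cs (u * cs.simple i) (Finsupp.single i 1)) :=
    act_single_pos (by rw [cs.simple_mul_simple_cancel_right]; exact hlt)
  have h3 : w * cs.simple i * (u * cs.simple i)⁻¹ = w * u⁻¹ := by
    rw [mul_inv_rev, cs.inv_simple, ← mul_assoc, mul_assoc w, cs.simple_mul_simple_self, mul_one]
  rw [h3] at h1
  refine le_trans ?_ h1
  conv_lhs => rw [e]
  rw [act_mul_apply, act_simple_grad h hw hi', map_sub, map_smul]
  simp only [Finsupp.coe_sub, Finsupp.coe_smul, Pi.sub_apply, Pi.smul_apply, smul_eq_mul]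
  have := mul_nonneg (h.wall w hw i hi') (h2 t)
  linarith

variable (cs) in
/-- the functional `y` lies in the closed chamber `w` of the Coxeter complex of `W_U` -/
def InCh (U : Finset B) (y : VSp B →ₗ[ℝ] ℝ) (w : W) : Prop :=
  ∀ i ∈ U, 0 ≤ y (act cs w (Finsupp.single i 1))

theorem InCh.nonneg {y : VSp B →ₗ[ℝ] ℝ} {w : W} (h : InCh cs U y w) {v : VSp B} (hv : NN v)
    (hs : Supp U v) : 0 ≤ y (act cs w v) := by
  rw [hs.sum, map_sum, map_sum]
  refine Finset.sum_nonneg fun j hj => ?_
  rw [map_smul, map_smul, smul_eq_mul]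
  exact mul_nonneg (hv j) (h j hj)

theorem sum_eq_grad (y : VSp B →ₗ[ℝ] ℝ) (ψ : W → B → ℝ) (w : W) :
    ∑ j ∈ U, y (act cs w (Finsupp.single j 1)) * ψ w j = y (act cs w (grad U ψ w)) := by
  conv_rhs => rw [(grad_supp (U := U) ψ w).sum, map_sum, map_sum]
  refine Finset.sum_congr rfl fun j hj => ?_
  rw [map_smul, map_smul, smul_eq_mul, grad_apply ψ w hj, mul_comm]

variable (cs) in
/-- the vertex `(w, t)` as a functional: `v ↦ (w⁻¹ v)_t` -/
noncomputable def vtx (w : W) (t : B) : VSp B →ₗ[ℝ] ℝ := (Finsupp.lapply t).comp (act cs w⁻¹)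

theorem vtx_apply (w : W) (t : B) (v : VSp B) : vtx cs w t v = (act cs w⁻¹ v) t := rfl

theorem vtx_self (w : W) (t i : B) : vtx cs w t (act cs w (Finsupp.single i 1)) =
    (Finsupp.single i (1 : ℝ)) t := by
  rw [vtx_apply, act_inv_apply_self]

theorem inCh_vtx (w : W) (t : B) : InCh cs U (vtx cs w t) w := fun i _ => by
  rw [vtx_self]; exact NN_single i t

theorem vtx_grad_le {ψ : W → B → ℝ} (h : IsConv cs U ψ) {w w' : W}
    (hw : w ∈ parab cs (U : Set B)) (hw' : w' ∈ parab cs (U : Set B)) {t : B} (ht : t ∈ U) :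
    vtx cs w t (act cs w' (grad U ψ w')) ≤ ψ w t := by
  have := grad_le h hw' (mul_mem (inv_mem hw) hw') ht
  rw [vtx_apply, ← act_mul_apply]
  refine this.trans (le_of_eq ?_)
  congr 1
  group

/-! ### existence of a chamber -/

theorem act_simple_root_of_ne {t : W} {i : B} (ht : cs.IsReflection t) (hne : t ≠ cs.simple i) :
    act cs (cs.simple i) (root cs t) = root cs (cs.simple i * t * (cs.simple i)⁻¹) := by
  apply act_root_of_lt ht
  rw [cs.length_simple]
  by_contra hcon
  have h1 : cs.length (cs.simple i * t) % 2 = 0 := by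
    have h4 := ht.odd_length
    rcases cs.length_simple_mul t i with h | h
    · rw [h]; obtain ⟨k, hk⟩ := h4; omega
    · obtain ⟨k, hk⟩ := h4; omega
  have h5 : cs.length (cs.simple i * t) = 0 := by omega
  rw [cs.length_eq_zero_iff] at h5
  apply hne
  have := congrArg (fun z => cs.simple i * z) h5
  simpa [← mul_assoc] using this

variable (cs) in
/-- sum of the positive roots of `W_U` -/
noncomputable def rho (U : Finset B) [Finite (parab cs (U : Set B))] : VSp B :=
  ∑ t ∈ (Set.Finite.subset (s := (parab cs (U : Set B) : Set W)) (Set.toFinite _)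
    (t := {t | cs.IsReflection t ∧ t ∈ parab cs (U : Set B)}) (fun _ h => h.2)).toFinset,
    root cs t

theorem act_simple_rho [Finite (parab cs (U : Set B))] {i : B} (hi : i ∈ U) :
    act cs (cs.simple i) (rho cs U) = rho cs U - (2 : ℝ) • Finsupp.single i 1 := by
  classical
  unfold rho
  set F := (Set.Finite.subset (s := (parab cs (U : Set B) : Set W)) (Set.toFinite _)
    (t := {t | cs.IsReflection t ∧ t ∈ parab cs (U : Set B)}) (fun _ h => h.2)).toFinset with hF
  have hmem : ∀ t, t ∈ F ↔ cs.IsReflection t ∧ t ∈ parab cs (U : Set B) := fun t => by simp [hF]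
  have hsi : cs.simple i ∈ parab cs (U : Set B) := simple_mem_parab hi
  have hi' : cs.simple i ∈ F := (hmem _).mpr ⟨cs.isReflection_simple i, hsi⟩
  have hconj : ∀ t ∈ F.erase (cs.simple i),
      cs.simple i * t * (cs.simple i)⁻¹ ∈ F.erase (cs.simple i) := by
    intro t ht
    have ht' := (hmem t).mp (Finset.mem_of_mem_erase ht)
    refine Finset.mem_erase.mpr ⟨?_, (hmem _).mpr
      ⟨ht'.1.conj _, mul_mem (mul_mem hsi ht'.2) (inv_mem hsi)⟩⟩
    intro h
    apply Finset.ne_of_mem_erase ht
    have h2 : cs.simple i * (cs.simple i * t * (cs.simple i)⁻¹) * cs.simple i = t := by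
      rw [cs.inv_simple]; simp [mul_assoc]
    rw [← h2, h]; simp
  rw [map_sum, ← Finset.add_sum_erase F _ hi', ← Finset.add_sum_erase F (root cs) hi']
  have h1 : ∑ t ∈ F.erase (cs.simple i), act cs (cs.simple i) (root cs t) =
      ∑ t ∈ F.erase (cs.simple i), root cs t := by
    have e1 : ∑ t ∈ F.erase (cs.simple i), act cs (cs.simple i) (root cs t) =
        ∑ t ∈ F.erase (cs.simple i), root cs (cs.simple i * t * (cs.simple i)⁻¹) :=
      Finset.sum_congr rfl fun t ht => act_simple_root_of_ne
        ((hmem t).mp (Finset.mem_of_mem_erase ht)).1 (Finset.ne_of_mem_erase ht)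
    rw [e1]
    refine Finset.sum_bij' (fun t _ => cs.simple i * t * (cs.simple i)⁻¹)
      (fun t _ => cs.simple i * t * (cs.simple i)⁻¹) hconj hconj ?_ ?_ ?_
    · intro t _; rw [cs.inv_simple]; simp [mul_assoc]
    · intro t _; rw [cs.inv_simple]; simp [mul_assoc]
    · intro t _; rfl
  rw [h1, root_simple, act_simple_self, two_smul]
  abel

theorem exists_inCh [Finite (parab cs (U : Set B))] (y : VSp B →ₗ[ℝ] ℝ) :
    ∃ w ∈ parab cs (U : Set B), InCh cs U y w := by
  obtain ⟨⟨w, hw0⟩, hw⟩ := Finite.exists_max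
    fun w : parab cs (U : Set B) => y (act cs (w : W) (rho cs U))
  refine ⟨w, hw0, fun i hi => ?_⟩
  have h := hw ⟨w * cs.simple i, mul_mem hw0 (simple_mem_parab hi)⟩
  simp only [act_mul_apply, act_simple_rho hi, map_sub, map_smul, smul_eq_mul] at h
  linarith

/-! ### the wall vertex -/

theorem exists_wall_vertex_aux [Finite (parab cs (U : Set B))] (y : VSp B →ₗ[ℝ] ℝ) {x : B}
    (hx : x ∈ U) (hy : y (Finsupp.single x 1) = 0) :
    ∃ w ∈ parab cs (U : Set B), InCh cs U y w ∧
      ∀ s ∈ U, 0 < y (act cs w (Finsupp.single s 1)) →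
        (act cs w⁻¹ (Finsupp.single x 1)) s = 0 := by
  obtain ⟨w, hwU, hw⟩ := exists_inCh (cs := cs) (U := U) y
  refine ⟨w, hwU, hw, fun s hsU hs => ?_⟩
  set b := act cs w⁻¹ (Finsupp.single x 1) with hb
  have hbs : Supp U b := (supp_single hx).act (inv_mem hwU)
  have h0 : ∑ j ∈ U, b j * y (act cs w (Finsupp.single j 1)) = 0 := by
    have : y (act cs w b) = 0 := by rw [hb, act_self_inv_apply, hy]
    rw [hbs.sum, map_sum, map_sum] at this
    rw [← this]
    exact Finset.sum_congr rfl fun j _ => by rw [map_smul, map_smul, smul_eq_mul]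
  rcases act_single_or (cs := cs) w⁻¹ x with h | h
  · have := (Finset.sum_eq_zero_iff_of_nonneg fun j hj => mul_nonneg (h j) (hw j hj)).mp h0 s hsU
    rcases mul_eq_zero.mp this with h' | h'
    · exact h'
    · exact absurd h' hs.ne'
  · have h1 : ∑ j ∈ U, (-b) j * y (act cs w (Finsupp.single j 1)) = 0 := by
      rw [← neg_zero, ← h0, ← Finset.sum_neg_distrib]
      exact Finset.sum_congr rfl fun j _ => by simp
    have := (Finset.sum_eq_zero_iff_of_nonneg fun j hj => mul_nonneg (h j) (hw j hj)).mp h1 s hsU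
    rcases mul_eq_zero.mp this with h' | h'
    · simpa using h'
    · exact absurd h' hs.ne'

/-- the midpoint functional of `(w,t)` and its mirror image -/
noncomputable def mid (cs : CoxeterSystem M W) (x : B) (w : W) (t : B) : VSp B →ₗ[ℝ] ℝ :=
  (1 / 2 : ℝ) • (vtx cs w t + vtx cs (cs.simple x * w) t)

theorem mid_root (x : B) (w : W) (t : B) : mid cs x w t (Finsupp.single x 1) = 0 := by
  unfold mid
  simp only [LinearMap.smul_apply, LinearMap.add_apply, vtx_apply]
  rw [mul_inv_rev, cs.inv_simple, act_mul_apply, act_simple_self, map_neg]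
  simp

/-- if `ψ` is negative at `(w,t)` and at its mirror image in the wall `H_x` then it is negative at
some vertex of the wall `H_x` -/
theorem exists_wall_vertex [Finite (parab cs (U : Set B))] {ψ : W → B → ℝ} (h : IsConv cs U ψ)
    {x : B} (hx : x ∈ U) {w : W} (hw : w ∈ parab cs (U : Set B)) {t : B} (ht : t ∈ U)
    (h1 : ψ w t < 0) (h2 : ψ (cs.simple x * w) t < 0) :
    ∃ w' ∈ parab cs (U : Set B), ∃ s ∈ U, ψ w' s < 0 ∧
      (act cs w'⁻¹ (Finsupp.single x 1)) s = 0 := by
  obtain ⟨w', hwU', hw', hz⟩ :=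
    exists_wall_vertex_aux (cs := cs) (mid cs x w t) hx (mid_root x w t)
  have h3 : ∑ j ∈ U, mid cs x w t (act cs w' (Finsupp.single j 1)) * ψ w' j < 0 := by
    rw [sum_eq_grad]
    unfold mid
    simp only [LinearMap.smul_apply, LinearMap.add_apply, smul_eq_mul]
    have e1 := vtx_grad_le h hw hwU' ht
    have e2 := vtx_grad_le h (mul_mem (simple_mem_parab (cs := cs)
      (show x ∈ (U : Set B) from hx)) hw) hwU' ht
    linarith
  obtain ⟨s, hsU, hs⟩ := Finset.exists_lt_of_sum_lt (f := fun j =>
    mid cs x w t (act cs w' (Finsupp.single j 1)) * ψ w' j) (g := fun _ => (0 : ℝ))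
    (s := U) (by simpa using h3)
  have hs' : 0 < mid cs x w t (act cs w' (Finsupp.single s 1)) := by
    rcases (hw' s hsU).lt_or_eq with h' | h'
    · exact h'
    · simp [← h'] at hs
  exact ⟨w', hwU', s, hsU, by nlinarith, hz s hsU hs'⟩

end Vale.Agent.P203.Apt
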